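import Vale.Agent.P183.Bdl.B3

/-!
Closure theorems for the class of representable lattices and the classes obtained from them.
-/

namespace Vale.Agent.Results.P183.Main

open Vale.Agent.P183

theorem result :
    -- every lattice with at most seven elements is representable
    (∀ (L : Type) [Lattice L] [Finite L] [Nonempty L], Nat.card L ≤ 7 → Representable L) ∧
    -- subdirect products of lattices with at most seven elements
    (∀ (L : Type) [Lattice L] [Finite L] [Nonempty L],
      (∀ a b : L, a ≠ b → ∃ (K : Type) (_ : Lattice K) (_ : Finite K) (f : LatticeHom L K),
        Nat.card K ≤ 7 ∧ f a ≠ f b) → Representable L) ∧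
    -- closure under subdirect products
    (∀ (L : Type) [Lattice L] [Finite L] [Nonempty L],
      (∀ a b : L, a ≠ b → ∃ (K : Type) (_ : Lattice K) (f : LatticeHom L K),
        Function.Surjective f ∧ Representable K ∧ f a ≠ f b) → Representable L) ∧
    -- extensions whose fibres are intervals of a representable lattice
    (∀ (L K M : Type) [Lattice L] [Lattice K] [Lattice M] (f : LatticeHom L K) (P : L → M),
      Function.Surjective f → Monotone P → (∀ a b, f a ≤ f b → P a ≤ P b → a ≤ b) →
      (∀ a b m, f a = f b → P a ≤ m → m ≤ P b → ∃ c, f c = f a ∧ P c = m) →
      Representable K → Representable M → Representable L) ∧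
    -- extensions with fibres of size at most two
    (∀ (L K : Type) [Lattice L] [Lattice K] (f : LatticeHom L K), Function.Surjective f →
      (∀ a b c, f a = f b → f b = f c → a = b ∨ b = c ∨ a = c) →
      Representable K → Representable L) ∧
    -- inflations of convex sets
    (∀ (K S : Type) [PartialOrder K] [PartialOrder S] (C : Set K), C.OrdConnected →
      Representable K → Representable S → Representable (Inflate K S C)) ∧
    -- congruence normal lattices
    (∀ (L : Type) [PartialOrder L], CongruenceNormal L → Representable L) :=
  ⟨fun L _ _ _ h => representable_card_le_seven L h,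
    fun L _ _ _ h => representable_of_separated_seven L h,
    fun L _ _ _ h => representable_of_separated L h,
    fun _ _ _ _ _ _ f P hf hP hemb hint hK hM => Representable.master f hf P hP hemb hint hK hM,
    fun _ _ _ _ f hf h2 hK => Representable.of_two_fiber f hf h2 hK,
    fun _ _ _ _ _ hC hK hS => Representable.inflate hC hK hS,
    fun _ _ h => h.representable⟩

end Vale.Agent.Results.P183.Main
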